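import Vale.Agent.P211.Cert.Pair.Data.PairInnerA.Base

/-!
P211, data: the root `innerA` of the form across the gradient, generated from the exact search.
-/

namespace Vale.Agent.P211.Cert.Pair.PairInnerA

open Vale.Agent.P098.Check6 (Face St ofChunks reach)
open Vale.Agent.P098.Cert6.Kron (RootPar)

/-- A subtree. -/
def tree0 : Check.Tree Check.Leaf :=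
  .node 1
    (.node 2
    (.node 2
    (.node 2
    (.node 2
    (.node 1
    (.leaf (.psd ⟨⟨⟨1, (-5769), 0⟩, ⟨0, 1024, 0⟩, ⟨0, 0, 1⟩⟩, ⟨⟨1024, 5769, 0⟩, ⟨0, 1, 0⟩, ⟨0, 0, 1024⟩⟩, 1024, ⟨1048576, 113, 1⟩⟩))
    (.leaf (.skip 6)))
    (.leaf (.psd ⟨⟨⟨1024, 0, 0⟩, ⟨(-176), 1, 0⟩, ⟨0, 0, 1⟩⟩, ⟨⟨1, 0, 0⟩, ⟨176, 1024, 0⟩, ⟨0, 0, 1024⟩⟩, 1024, ⟨27, 4096, 1⟩⟩)))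
    (.leaf (.psd ⟨⟨⟨1024, 0, 0⟩, ⟨(-325), 1, 0⟩, ⟨0, 0, 1⟩⟩, ⟨⟨1, 0, 0⟩, ⟨325, 1024, 0⟩, ⟨0, 0, 1024⟩⟩, 1024, ⟨17, 4096, 1⟩⟩)))
    (.leaf (.psd ⟨⟨⟨1024, 0, 0⟩, ⟨(-621), 1, 0⟩, ⟨0, 0, 1⟩⟩, ⟨⟨1, 0, 0⟩, ⟨621, 1024, 0⟩, ⟨0, 0, 1024⟩⟩, 1024, ⟨9, 4096, 1⟩⟩)))
    (.leaf (.psd ⟨⟨⟨1024, 0, 0⟩, ⟨(-1213), 1, 0⟩, ⟨0, 0, 1⟩⟩, ⟨⟨1, 0, 0⟩, ⟨1213, 1024, 0⟩, ⟨0, 0, 1024⟩⟩, 1024, ⟨4, 4096, 1⟩⟩)))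
    (.node 2
    (.node 1
    (.node 2
    (.leaf (.skip 6))
    (.leaf (.psd ⟨⟨⟨1024, 0, 0⟩, ⟨(-643), 1, 0⟩, ⟨0, 0, 1⟩⟩, ⟨⟨1, 0, 0⟩, ⟨643, 1024, 0⟩, ⟨0, 0, 1024⟩⟩, 1024, ⟨7, 4096, 1⟩⟩)))
    (.leaf (.skip 6)))
    (.node 1
    (.leaf (.psd ⟨⟨⟨1024, 0, 0⟩, ⟨(-1234), 1, 0⟩, ⟨0, 0, 1⟩⟩, ⟨⟨1, 0, 0⟩, ⟨1234, 1024, 0⟩, ⟨0, 0, 1024⟩⟩, 1024, ⟨4, 4096, 1⟩⟩))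
    (.node 0
    (.leaf (.psd ⟨⟨⟨1024, 0, 0⟩, ⟨(-991), 1, 0⟩, ⟨0, 0, 1⟩⟩, ⟨⟨1, 0, 0⟩, ⟨991, 1024, 0⟩, ⟨0, 0, 1024⟩⟩, 1024, ⟨3, 4096, 1⟩⟩))
    (.node 2
    (.node 1
    (.leaf (.psd ⟨⟨⟨1024, 0, 0⟩, ⟨(-889), 1, 0⟩, ⟨0, 0, 1⟩⟩, ⟨⟨1, 0, 0⟩, ⟨889, 1024, 0⟩, ⟨0, 0, 1024⟩⟩, 1024, ⟨2, 4096, 1⟩⟩))
    (.leaf (.skip 6)))
    (.leaf (.psd ⟨⟨⟨1024, 0, 0⟩, ⟨(-1204), 1, 0⟩, ⟨0, 0, 1⟩⟩, ⟨⟨1, 0, 0⟩, ⟨1204, 1024, 0⟩, ⟨0, 0, 1024⟩⟩, 1024, ⟨326, 1048576, 1⟩⟩))))))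

theorem chunk0 : Check.Good ⟨false, false, false⟩ cfg (reach cfg base []) :=
  Check.check_sound tree0 (by decide +kernel)

end Vale.Agent.P211.Cert.Pair.PairInnerA
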